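import Mathlib

/-!
# Every long segment meets the centre of a prime-free disk of Gaussian integers

The centre is found on a lattice line `c₀ + ℕ (v, w)` with `(v, w)` coprime and nearly parallel
to the segment. For a prime `p ≡ 1 mod 4` at least one of the two maps `ℤ[i] → ZMod p` is
nonzero at `v + w i`, so the Chinese remainder theorem moves every offset of a fixed box onto
a multiple of a prime ideal of norm `p`.
-/

namespace Vale.Agent.P015

lemma prime_norm_le {z : GaussianInt} (hz : Prime z) {p : ℕ} (hp : p.Prime)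
    (h : (p : ℤ) ∣ z.norm) : z.norm ≤ (p : ℤ) ^ 2 := by
  obtain ⟨n, hn⟩ := Int.eq_ofNat_of_zero_le (GaussianInt.norm_nonneg z)
  have hn0 : n ≠ 0 := by
    have h1 := GaussianInt.norm_pos.2 hz.ne_zero
    omega
  have hdvd : z ∣ ((n.primeFactorsList.map (Nat.cast : ℕ → GaussianInt)).prod) := by
    rw [← Nat.cast_list_prod, Nat.prod_primeFactorsList hn0]
    refine ⟨star z, ?_⟩
    rw [← Zsqrtd.norm_eq_mul_conj, hn]
    simp
  obtain ⟨q', hq', hzq⟩ := hz.dvd_prod_iff.1 hdvd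
  obtain ⟨q, hq, rfl⟩ := List.mem_map.1 hq'
  have hqp := Nat.prime_of_mem_primeFactorsList hq
  obtain ⟨c, hc⟩ := hzq
  have h2 : z.norm ∣ ((q * q : ℕ) : ℤ) := ⟨c.norm, by
    rw [← Zsqrtd.norm_mul, ← hc, Zsqrtd.norm_natCast, Nat.cast_mul]⟩
  rw [hn] at h h2 ⊢
  rw [Int.natCast_dvd_natCast] at h h2
  have hpq : p = q := (Nat.prime_dvd_prime_iff_eq hp hqp).1
    ((hp.dvd_mul.1 (h.trans h2)).elim id id)
  subst hpq
  have := Nat.le_of_dvd (Nat.mul_pos hp.pos hp.pos) h2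
  rw [sq]; exact_mod_cast this

lemma exists_residue {p : ℕ} [Fact p.Prime] (h4 : p % 4 = 1) {v w : ℤ} (hvw : IsCoprime v w)
    (a b : ℤ) : ∃ t : ZMod p, ∀ A B : ℤ, (A : ZMod p) = a + t * v → (B : ZMod p) = b + t * w →
      (p : ℤ) ∣ A * A + B * B := by
  obtain ⟨j, hj⟩ : IsSquare (-1 : ZMod p) := ZMod.exists_sq_eq_neg_one_iff.2 (by omega)
  have h2 : (2 : ZMod p) ≠ 0 := by
    intro h
    have h' : ((2 : ℕ) : ZMod p) = 0 := by exact_mod_cast h
    have hdvd := (ZMod.natCast_eq_zero_iff 2 p).1 h'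
    have := Nat.le_of_dvd two_pos hdvd
    have := (Fact.out : p.Prime).two_le
    omega
  obtain ⟨j', hj', hne⟩ : ∃ j' : ZMod p, j' * j' = -1 ∧ (v : ZMod p) + j' * w ≠ 0 := by
    by_cases h : (v : ZMod p) + j * w = 0
    · refine ⟨-j, by rw [neg_mul_neg, ← hj], fun h' => ?_⟩
      have hv : (v : ZMod p) = 0 := by
        have : (2 : ZMod p) * v = 0 := by linear_combination h + h'
        exact (mul_eq_zero.1 this).resolve_left h2
      have hw : (w : ZMod p) = 0 := by linear_combination (-j) * h + j * hv - (w : ZMod p) * hj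
      obtain ⟨x, y, hxy⟩ := hvw
      have := congrArg (fun n : ℤ => (n : ZMod p)) hxy
      simp [hv, hw] at this
    · exact ⟨j, hj.symm, h⟩
  refine ⟨-((a : ZMod p) + j' * b) / (v + j' * w), fun A B hA hB => ?_⟩
  rw [← ZMod.intCast_zmod_eq_zero_iff_dvd]
  have h0 : (A : ZMod p) + j' * B = 0 := by
    rw [hA, hB]; field_simp; ring
  push_cast
  linear_combination ((A : ZMod p) - j' * B) * h0 + (B : ZMod p) * B * hj'

lemma exists_center (R : ℕ) : ∃ P : ℕ, 0 < P ∧ ∀ a b v w : ℤ, IsCoprime v w → ∃ t : ℕ, t < P ∧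
    ∀ z : GaussianInt, |z.re - (a + t * v)| ≤ R → |z.im - (b + t * w)| ≤ R → Prime z →
      z.norm ≤ (P : ℤ) ^ 2 := by
  classical
  have hS : {p : ℕ | p.Prime ∧ p % 4 = 1}.Infinite := by
    refine Set.infinite_of_forall_exists_gt fun n => ?_
    obtain ⟨p, hp, hgt, hmod⟩ := Nat.exists_prime_gt_modEq_one (k := 4) n (by norm_num)
    exact ⟨p, ⟨hp, hmod⟩, hgt⟩
  set g : ℕ ↪ {p : ℕ | p.Prime ∧ p % 4 = 1} := hS.natEmbedding _
  set p : ℤ × ℤ → ℕ := fun o => (g (Encodable.encode o) : ℕ) with hpdef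
  have hp : ∀ o, (p o).Prime ∧ p o % 4 = 1 := fun o => (g (Encodable.encode o)).2
  have hinj : Function.Injective p := fun o o' h =>
    Encodable.encode_injective (g.injective (Subtype.ext h))
  set O : Finset (ℤ × ℤ) := Finset.Icc (-(R : ℤ)) R ×ˢ Finset.Icc (-(R : ℤ)) R
  have hpos : 0 < ∏ o ∈ O, p o := Finset.prod_pos fun o _ => (hp o).1.pos
  refine ⟨∏ o ∈ O, p o, hpos, fun a b v w hvw => ?_⟩
  have hres : ∀ o : ℤ × ℤ, ∃ t : ℕ, ∀ A B : ℤ,
      (A : ZMod (p o)) = ((a + o.1 : ℤ) : ZMod (p o)) + (t : ZMod (p o)) * v →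
      (B : ZMod (p o)) = ((b + o.2 : ℤ) : ZMod (p o)) + (t : ZMod (p o)) * w →
      (p o : ℤ) ∣ A * A + B * B := by
    intro o
    have : Fact (p o).Prime := ⟨(hp o).1⟩
    obtain ⟨t, ht⟩ := exists_residue (p := p o) (hp o).2 hvw (a + o.1) (b + o.2)
    exact ⟨t.val, fun A B hA hB => ht A B (by rwa [ZMod.natCast_zmod_val] at hA)
      (by rwa [ZMod.natCast_zmod_val] at hB)⟩
  choose t ht using hres
  have hne : ∀ o ∈ O, p o ≠ 0 := fun o _ => (hp o).1.ne_zero
  have hco : (O : Set (ℤ × ℤ)).Pairwise fun o o' => Nat.Coprime (p o) (p o') := fun o _ o' _ h =>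
    (Nat.coprime_primes (hp o).1 (hp o').1).2 (hinj.ne h)
  obtain ⟨k, hk⟩ := Nat.chineseRemainderOfFinset t p O hne hco
  refine ⟨k % ∏ o ∈ O, p o, Nat.mod_lt _ hpos, fun z hre him hz => ?_⟩
  set k' := k % ∏ o ∈ O, p o
  set o : ℤ × ℤ := (z.re - (a + k' * v), z.im - (b + k' * w))
  have ho : o ∈ O := Finset.mem_product.2
    ⟨Finset.mem_Icc.2 (abs_le.1 hre), Finset.mem_Icc.2 (abs_le.1 him)⟩
  have hkt : (k' : ZMod (p o)) = (t o : ZMod (p o)) := by
    rw [ZMod.natCast_eq_natCast_iff]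
    exact ((Nat.mod_modEq k _).of_dvd (Finset.dvd_prod_of_mem p ho)).trans (hk o ho)
  have hd : (p o : ℤ) ∣ z.norm := by
    have h1 := ht o z.re z.im
      (by rw [← hkt]; simp only [o]; push_cast; ring)
      (by rw [← hkt]; simp only [o]; push_cast; ring)
    have h2 : z.norm = z.re * z.re + z.im * z.im := by rw [Zsqrtd.norm_def]; ring
    rwa [h2]
  refine (prime_norm_le hz (hp o).1 hd).trans ?_
  have : (p o : ℤ) ≤ ((∏ o ∈ O, p o : ℕ) : ℤ) := by
    exact_mod_cast Nat.le_of_dvd hpos (Finset.dvd_prod_of_mem p ho)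
  exact pow_le_pow_left₀ (by positivity) this 2

lemma exists_direction (u : ℂ) (hu : ‖u‖ = 1) {n : ℕ} (hn : 0 < n) :
    ∃ v w : ℤ, IsCoprime v w ∧ |(v : ℝ)| ≤ 2 * n + 1 ∧ |(w : ℝ)| ≤ 2 * n + 1 ∧
      |(v : ℝ) * u.im - (w : ℝ) * u.re| ≤ 1 / (n + 1) ∧
      0 ≤ (v : ℝ) * u.re + (w : ℝ) * u.im := by
  have hre : |u.re| ≤ 1 := hu ▸ Complex.abs_re_le_norm u
  have him : |u.im| ≤ 1 := hu ▸ Complex.abs_im_le_norm u
  have key : ∀ x y : ℝ, |x| ≤ 1 → |y| ≤ |x| → x ≠ 0 → ∃ k j : ℤ, 0 < k ∧ |(k : ℝ)| ≤ 2 * n + 1 ∧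
      |(j : ℝ)| ≤ 2 * n + 1 ∧ |(k : ℝ) * y - (j : ℝ) * x| ≤ 1 / (n + 1) := by
    intro x y hx hyx hx0
    obtain ⟨j, k, hk0, hkn, h⟩ := Real.exists_int_int_abs_mul_sub_le (y / x) hn
    have hk : |(k : ℝ)| ≤ n := by
      rw [abs_of_nonneg (by exact_mod_cast hk0.le)]; exact_mod_cast hkn
    have hq : |y / x| ≤ 1 := by
      rw [abs_div, div_le_one (abs_pos.2 hx0)]; exact hyx
    have hn1 : (1 : ℝ) / (n + 1) ≤ 1 := by
      rw [div_le_one (by positivity)]; exact le_add_of_nonneg_left (by positivity)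
    refine ⟨k, j, hk0, by linarith, ?_, ?_⟩
    · have h1 : |(j : ℝ)| ≤ |(k : ℝ) * (y / x)| + |(k : ℝ) * (y / x) - j| := by
        have := abs_sub ((k : ℝ) * (y / x)) ((k : ℝ) * (y / x) - j)
        simpa using this
      have h2 : |(k : ℝ) * (y / x)| ≤ n := by
        rw [abs_mul]
        exact (mul_le_mul hk hq (abs_nonneg _) (by positivity)).trans_eq (mul_one _)
      linarith
    · have h1 : (k : ℝ) * y - j * x = x * ((k : ℝ) * (y / x) - j) := by field_simp
      rw [h1, abs_mul]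
      exact (mul_le_mul hx h (abs_nonneg _) zero_le_one).trans_eq (one_mul _)
  obtain ⟨v₀, w₀, h0, hv, hw, hc⟩ : ∃ v w : ℤ, (v ≠ 0 ∨ w ≠ 0) ∧ |(v : ℝ)| ≤ 2 * n + 1 ∧
      |(w : ℝ)| ≤ 2 * n + 1 ∧ |(v : ℝ) * u.im - (w : ℝ) * u.re| ≤ 1 / (n + 1) := by
    by_cases hx : |u.im| ≤ |u.re|
    · have hx0 : u.re ≠ 0 := fun h => by
        have him0 : u.im = 0 := abs_eq_zero.1 (le_antisymm (by simpa [h] using hx) (abs_nonneg _))
        have : u = 0 := Complex.ext h him0
        simp [this] at hu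
      obtain ⟨k, j, hk, h1, h2, h3⟩ := key u.re u.im hre hx hx0
      exact ⟨k, j, Or.inl hk.ne', h1, h2, h3⟩
    · push Not at hx
      have hy0 : u.im ≠ 0 := fun h => absurd hx (by simp [h])
      obtain ⟨k, j, hk, h1, h2, h3⟩ := key u.im u.re him hx.le hy0
      refine ⟨j, k, Or.inr hk.ne', h2, h1, ?_⟩
      rwa [abs_sub_comm]
  obtain ⟨g, v', w', hg, hgcd, rfl, rfl⟩ : ∃ (g : ℕ) (m' n' : ℤ), 0 < g ∧ Int.gcd m' n' = 1 ∧
      v₀ = m' * g ∧ w₀ = n' * g := Int.exists_gcd_one' (Int.gcd_pos_iff.2 h0)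
  have hg1 : (1 : ℝ) ≤ g := by exact_mod_cast hg
  have hle : ∀ x : ℝ, |x| ≤ |x * g| := fun x => by
    rw [abs_mul, abs_of_nonneg (by linarith : (0 : ℝ) ≤ g)]
    exact le_mul_of_one_le_right (abs_nonneg _) hg1
  have hcop : IsCoprime v' w' := Int.isCoprime_iff_gcd_eq_one.2 hgcd
  push_cast at hv hw hc
  have hc' : |(v' : ℝ) * u.im - (w' : ℝ) * u.re| ≤ 1 / (n + 1) := by
    refine (hle _).trans (le_trans (le_of_eq ?_) hc)
    ring_nf
  have hv' := (hle (v' : ℝ)).trans hv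
  have hw' := (hle (w' : ℝ)).trans hw
  by_cases hd : 0 ≤ (v' : ℝ) * u.re + (w' : ℝ) * u.im
  · exact ⟨v', w', hcop, hv', hw', hc', hd⟩
  · refine ⟨-v', -w', hcop.neg_neg, by simpa using hv', by simpa using hw', ?_, ?_⟩
    · push_cast
      rw [← abs_neg] at hc'
      convert hc' using 2
      ring
    · push_cast
      linarith [not_le.1 hd]

/-- Every segment of length `L` meets the centre of a prime-free disk of radius `r`. -/
theorem exists_free_center (r : ℝ) : ∃ L : ℝ, 0 < L ∧ ∀ a u : ℂ, ‖u‖ = 1 →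
    ∃ s ∈ Set.Icc 0 L, ∀ z : GaussianInt, ‖(z : ℂ) - (a + (s : ℂ) * u)‖ ≤ r → ¬ Prime z := by
  set R : ℕ := ⌈r⌉₊ + 2 with hR
  obtain ⟨P, hP, hcen⟩ := exists_center R
  set S : ℝ := (P : ℝ) * (4 * P + 2) with hS
  set M : ℝ := (P : ℝ) + |r| with hM
  have hS0 : 0 ≤ S := by positivity
  have hM0 : 0 ≤ M := by positivity
  refine ⟨2 * S + 2 * M + 1 + S, by positivity, fun a u hu => ?_⟩
  obtain ⟨σ, hσ0, hσ1, hfar⟩ : ∃ σ : ℝ, 0 ≤ σ ∧ σ ≤ 2 * S + 2 * M + 1 ∧
      ∀ s : ℝ, σ ≤ s → s ≤ σ + S → M < ‖a + (s : ℂ) * u‖ := by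
    by_cases h : ∀ s : ℝ, 0 ≤ s → s ≤ 0 + S → M < ‖a + (s : ℂ) * u‖
    · exact ⟨0, le_rfl, by positivity, h⟩
    · push Not at h
      obtain ⟨s₀, h0, h1, hs₀⟩ := h
      refine ⟨2 * S + 2 * M + 1, by positivity, le_rfl, fun s hs _ => ?_⟩
      by_contra! hcon
      have h2 := norm_sub_le (a + (s : ℂ) * u) (a + (s₀ : ℂ) * u)
      rw [add_sub_add_left_eq_sub, ← sub_mul, ← Complex.ofReal_sub, norm_mul, hu, mul_one,
        Complex.norm_real, Real.norm_eq_abs] at h2
      have := le_abs_self (s - s₀)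
      linarith
  obtain ⟨v, w, hvw, hv, hw, hc, hdot⟩ := exists_direction u hu hP
  set a' := a + (σ : ℂ) * u with ha'
  obtain ⟨t, ht, hz⟩ := hcen (round a'.re) (round a'.im) v w hvw
  set d : ℝ := (v : ℝ) * u.re + (w : ℝ) * u.im with hd
  have hre : |u.re| ≤ 1 := hu ▸ Complex.abs_re_le_norm u
  have him : |u.im| ≤ 1 := hu ▸ Complex.abs_im_le_norm u
  have hd2 : d ≤ 4 * P + 2 := by
    have h1 := le_abs_self ((v : ℝ) * u.re)
    have h2 := le_abs_self ((w : ℝ) * u.im)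
    rw [abs_mul] at h1 h2
    have h3 := mul_le_mul hv hre (abs_nonneg _) (by positivity)
    have h4 := mul_le_mul hw him (abs_nonneg _) (by positivity)
    linarith
  have htP : (t : ℝ) ≤ P := by exact_mod_cast ht.le
  have htd : (t : ℝ) * d ≤ S := mul_le_mul htP hd2 hdot (by positivity)
  have htd0 : 0 ≤ (t : ℝ) * d := mul_nonneg (by positivity) hdot
  refine ⟨σ + t * d, ⟨by linarith, by linarith⟩, fun z hzd hzp => ?_⟩
  have hu2 : u.re * u.re + u.im * u.im = 1 := by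
    rw [← Complex.normSq_apply, Complex.normSq_eq_norm_sq, hu, one_pow]
  have hsmall : (t : ℝ) * |(v : ℝ) * u.im - (w : ℝ) * u.re| ≤ 1 := by
    refine (mul_le_mul htP hc (abs_nonneg _) (by positivity)).trans ?_
    rw [mul_one_div, div_le_one (by positivity)]
    linarith
  set pt : ℂ := a + ((σ + t * d : ℝ) : ℂ) * u with hpt
  have hptre : pt.re = a'.re + t * d * u.re := by
    simp [hpt, ha', add_mul, add_assoc]
  have hptim : pt.im = a'.im + t * d * u.im := by
    simp [hpt, ha', add_mul, add_assoc]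
  have herr : |(round a'.re : ℝ) + t * v - pt.re| ≤ 2 ∧
      |(round a'.im : ℝ) + t * w - pt.im| ≤ 2 := by
    have e1 : (v : ℝ) - d * u.re = u.im * (v * u.im - w * u.re) := by
      rw [hd]; linear_combination -(v : ℝ) * hu2
    have e2 : (w : ℝ) - d * u.im = -u.re * (v * u.im - w * u.re) := by
      rw [hd]; linear_combination -(w : ℝ) * hu2
    constructor
    · have h1 := abs_sub_round a'.re
      rw [abs_sub_comm] at h1
      have h2 : |(t : ℝ) * (v - d * u.re)| ≤ 1 := by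
        rw [e1, abs_mul, abs_mul, Nat.abs_cast]
        exact le_trans (mul_le_mul_of_nonneg_left
          (mul_le_of_le_one_left (abs_nonneg _) him) (by positivity)) hsmall
      rw [hptre]
      have h3 := abs_add_le ((round a'.re : ℝ) - a'.re) ((t : ℝ) * (v - d * u.re))
      have e : (round a'.re : ℝ) + t * v - (a'.re + t * d * u.re) =
          (round a'.re : ℝ) - a'.re + (t : ℝ) * (v - d * u.re) := by ring
      rw [e]; linarith
    · have h1 := abs_sub_round a'.im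
      rw [abs_sub_comm] at h1
      have h2 : |(t : ℝ) * (w - d * u.im)| ≤ 1 := by
        rw [e2, abs_mul, abs_mul, abs_neg, Nat.abs_cast]
        exact le_trans (mul_le_mul_of_nonneg_left
          (mul_le_of_le_one_left (abs_nonneg _) hre) (by positivity)) hsmall
      rw [hptim]
      have h3 := abs_add_le ((round a'.im : ℝ) - a'.im) ((t : ℝ) * (w - d * u.im))
      have e : (round a'.im : ℝ) + t * w - (a'.im + t * d * u.im) =
          (round a'.im : ℝ) - a'.im + (t : ℝ) * (w - d * u.im) := by ring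
      rw [e]; linarith
  have hzre : |(z.re : ℝ) - pt.re| ≤ r := by
    have := Complex.abs_re_le_norm ((z : ℂ) - pt)
    rw [Complex.sub_re, ← GaussianInt.intCast_re] at this
    exact this.trans hzd
  have hzim : |(z.im : ℝ) - pt.im| ≤ r := by
    have := Complex.abs_im_le_norm ((z : ℂ) - pt)
    rw [Complex.sub_im, ← GaussianInt.intCast_im] at this
    exact this.trans hzd
  have hRr : r + 2 ≤ (R : ℝ) := by
    rw [hR]; push_cast; linarith [Nat.le_ceil r]
  have hbox : |z.re - (round a'.re + t * v)| ≤ R ∧ |z.im - (round a'.im + t * w)| ≤ R := by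
    constructor
    · rw [← Int.cast_le (R := ℝ)]; push_cast
      have := abs_sub_le (z.re : ℝ) pt.re ((round a'.re : ℝ) + t * v)
      rw [abs_sub_comm pt.re] at this
      linarith [herr.1]
    · rw [← Int.cast_le (R := ℝ)]; push_cast
      have := abs_sub_le (z.im : ℝ) pt.im ((round a'.im : ℝ) + t * w)
      rw [abs_sub_comm pt.im] at this
      linarith [herr.2]
  have hnorm := hz z hbox.1 hbox.2 hzp
  have h1 : ‖(z : ℂ)‖ ≤ P := by
    refine (sq_le_sq₀ (norm_nonneg _) (by positivity)).1 ?_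
    rw [← Complex.normSq_eq_norm_sq, ← GaussianInt.intCast_real_norm]
    exact_mod_cast hnorm
  have h2 := hfar (σ + t * d) (by linarith) (by linarith)
  have h3 := norm_le_norm_add_norm_sub' pt (z : ℂ)
  rw [norm_sub_rev] at h3
  have h4 : r ≤ |r| := le_abs_self r
  linarith [hpt ▸ h2]

/-- A path of Gaussian primes with bounded steps inside a strip has bounded length. -/
theorem strip_path_bound (D w : ℝ) : ∃ L : ℝ, ∀ a u : ℂ, ‖u‖ = 1 →
    ∀ (n : ℕ) (z : ℕ → GaussianInt), (∀ i ≤ n, Prime (z i)) →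
      (∀ i < n, ‖(z (i + 1) : ℂ) - (z i : ℂ)‖ ≤ D) →
      (∀ i ≤ n, |(((z i : ℂ) - a) * (starRingEnd ℂ) u).im| ≤ w) →
      ‖(z n : ℂ) - (z 0 : ℂ)‖ ≤ L := by
  obtain ⟨L, hL, hfree⟩ := exists_free_center (|D| + |w|)
  refine ⟨L + 2 * |w|, fun a u hu n z hprime hstep hstrip => ?_⟩
  have key : ∀ u : ℂ, ‖u‖ = 1 → (∀ i ≤ n, |(((z i : ℂ) - a) * (starRingEnd ℂ) u).im| ≤ w) →
      (((z n : ℂ) - (z 0 : ℂ)) * (starRingEnd ℂ) u).re ≤ L := by
    intro u hu hstrip
    set c : ℕ → ℝ := fun i => (((z i : ℂ) - a) * (starRingEnd ℂ) u).re with hc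
    by_contra! hcon
    obtain ⟨s, hs, hs'⟩ := hfree (a + (c 0 : ℂ) * u) u hu
    have hdiff : ∀ i j, (((z i : ℂ) - (z j : ℂ)) * (starRingEnd ℂ) u).re = c i - c j := fun i j => by
      simp only [hc]
      rw [← Complex.sub_re, ← sub_mul, sub_sub_sub_cancel_right]
    rw [hdiff] at hcon
    set T := c 0 + s with hT
    have hex : ∃ i, i ≤ n ∧ T ≤ c i := ⟨n, le_rfl, by linarith [hs.2]⟩
    classical
    obtain ⟨hin, hTi⟩ := Nat.find_spec hex
    set i := Nat.find hex with hi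
    have hclose : |c i - T| ≤ |D| := by
      rw [abs_of_nonneg (by linarith)]
      rcases Nat.eq_zero_or_pos i with h0 | hpos
      · rw [h0]; linarith [hs.1, abs_nonneg D]
      · obtain ⟨k, hk⟩ : ∃ k, i = k + 1 := ⟨i - 1, by omega⟩
        have hlt : c k < T := by
          by_contra! h
          exact Nat.find_min hex (m := k) (by omega) ⟨by omega, h⟩
        have h1 := Complex.abs_re_le_norm
          (((z (k + 1) : ℂ) - (z k : ℂ)) * (starRingEnd ℂ) u)
        rw [hdiff, norm_mul, Complex.norm_conj, hu, mul_one] at h1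
        have := hstep k (by omega)
        rw [hk]
        linarith [le_abs_self (c (k + 1) - c k), le_abs_self D]
    refine hs' (z i) ?_ (hprime i hin)
    have hu' : (starRingEnd ℂ) u * u = 1 := by
      rw [mul_comm, Complex.mul_conj, Complex.normSq_eq_norm_sq, hu]; simp
    have e : (z i : ℂ) - (a + (c 0 : ℂ) * u + (s : ℂ) * u) =
        (((z i : ℂ) - a) * (starRingEnd ℂ) u - (T : ℂ)) * u := by
      rw [sub_mul, mul_assoc, hu', hT]; push_cast; ring
    rw [e, norm_mul, hu, mul_one]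
    refine (Complex.norm_le_abs_re_add_abs_im _).trans (add_le_add ?_ ?_)
    · simpa [hc] using hclose
    · simpa using (hstrip i hin).trans (le_abs_self w)
  have h1 := key u hu hstrip
  have h2 := key (-u) (by rw [norm_neg, hu]) (fun i hi => by
    rw [map_neg, mul_neg, Complex.neg_im, abs_neg]
    exact hstrip i hi)
  rw [map_neg, mul_neg, Complex.neg_re] at h2
  have h3 : |(((z n : ℂ) - (z 0 : ℂ)) * (starRingEnd ℂ) u).im| ≤ 2 * |w| := by
    have e : ((z n : ℂ) - (z 0 : ℂ)) * (starRingEnd ℂ) u =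
        ((z n : ℂ) - a) * (starRingEnd ℂ) u - ((z 0 : ℂ) - a) * (starRingEnd ℂ) u := by ring
    rw [e, Complex.sub_im]
    have := abs_sub (((z n : ℂ) - a) * (starRingEnd ℂ) u).im
      (((z 0 : ℂ) - a) * (starRingEnd ℂ) u).im
    linarith [hstrip n le_rfl, hstrip 0 (Nat.zero_le n), le_abs_self w]
  have h4 := Complex.norm_le_abs_re_add_abs_im
    (((z n : ℂ) - (z 0 : ℂ)) * (starRingEnd ℂ) u)
  rw [norm_mul, Complex.norm_conj, hu, mul_one] at h4
  have h5 : |(((z n : ℂ) - (z 0 : ℂ)) * (starRingEnd ℂ) u).re| ≤ L :=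
    abs_le.2 ⟨by linarith, h1⟩
  linarith

/-- A path of Gaussian primes with bounded steps inside a bounded-width horn has no infinite
branch: there is one unbounded width function `W` that works for every axis. -/
theorem horn_bound (D : ℝ) : ∃ W : ℝ → ℝ, Monotone W ∧ Filter.Tendsto W Filter.atTop Filter.atTop ∧
    ∀ a u : ℂ, ‖u‖ = 1 → ¬ ∃ z : ℕ → GaussianInt, Function.Injective z ∧ (∀ i, Prime (z i)) ∧
      (∀ i, ‖(z (i + 1) : ℂ) - (z i : ℂ)‖ ≤ D) ∧
      ∀ i, |(((z i : ℂ) - a) * (starRingEnd ℂ) u).im| ≤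
        W |(((z i : ℂ) - a) * (starRingEnd ℂ) u).re| := by
  classical
  choose L hL using fun k : ℕ => strip_path_bound D (k : ℝ)
  set M : ℕ → ℝ := fun k => 4 * |L k| + k with hM
  set W : ℝ → ℝ := fun x => (Nat.findGreatest (fun k => M k ≤ x) ⌊x⌋₊ : ℕ) with hW
  have hmono : Monotone W := fun x y hxy => by
    simp only [hW, Nat.cast_le]
    exact Nat.findGreatest_mono (fun k hk => hk.trans hxy) (Nat.floor_le_floor hxy)
  refine ⟨W, hmono, Filter.tendsto_atTop_atTop.2 fun b => ?_, ?_⟩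
  · refine ⟨M ⌈b⌉₊, fun x hx => (Nat.le_ceil b).trans ?_⟩
    have h1 : ⌈b⌉₊ ≤ ⌊x⌋₊ := Nat.le_floor (le_trans (by simp [hM]) hx)
    simp only [hW, Nat.cast_le]
    exact Nat.le_findGreatest h1 hx
  rintro a u hu ⟨z, hinj, hp, hstep, hhorn⟩
  set c : ℕ → ℝ := fun i => (((z i : ℂ) - a) * (starRingEnd ℂ) u).re with hc
  have hcu : ¬ ∃ B : ℝ, ∀ i, |c i| ≤ B := by
    rintro ⟨B, hB⟩
    obtain ⟨L', hL'⟩ := strip_path_bound D (W B)
    have hb : ∀ n, ‖(z n : ℂ) - (z 0 : ℂ)‖ ≤ L' := fun n => hL' a u hu n z (fun i _ => hp i)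
      (fun i _ => hstep i) (fun i _ => (hhorn i).trans (hmono (hB i)))
    obtain ⟨N, hN⟩ : ∃ N : ℤ, ∀ n, |(z n).re| ≤ N ∧ |(z n).im| ≤ N := by
      refine ⟨⌈L' + ‖(z 0 : ℂ)‖⌉, fun n => ?_⟩
      have h1 : ‖(z n : ℂ)‖ ≤ L' + ‖(z 0 : ℂ)‖ := by
        linarith [norm_le_norm_add_norm_sub' (z n : ℂ) (z 0 : ℂ), hb n]
      have h2 := h1.trans (Int.le_ceil _)
      constructor
      · rw [← Int.cast_le (R := ℝ)]; push_cast
        rw [GaussianInt.intCast_re]
        exact (Complex.abs_re_le_norm _).trans h2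
      · rw [← Int.cast_le (R := ℝ)]; push_cast
        rw [GaussianInt.intCast_im]
        exact (Complex.abs_im_le_norm _).trans h2
    have hfin : (Set.range fun n => ((z n).re, (z n).im)).Finite := by
      refine ((Set.finite_Icc (-N) N).prod (Set.finite_Icc (-N) N)).subset ?_
      rintro _ ⟨n, rfl⟩
      exact ⟨Set.mem_Icc.2 (abs_le.1 (hN n).1), Set.mem_Icc.2 (abs_le.1 (hN n).2)⟩
    refine Set.infinite_range_of_injective (fun m n h => hinj ?_) hfin
    simp only [Prod.mk.injEq] at h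
    exact Zsqrtd.ext h.1 h.2
  have hD : 0 ≤ D := (norm_nonneg _).trans (hstep 0)
  have hcd : ∀ i, |(|c (i + 1)|) - (|c i|)| ≤ D := fun i => by
    refine (abs_abs_sub_abs_le_abs_sub _ _).trans ?_
    have h1 := Complex.abs_re_le_norm (((z (i + 1) : ℂ) - (z i : ℂ)) * (starRingEnd ℂ) u)
    rw [norm_mul, Complex.norm_conj, hu, mul_one] at h1
    refine le_trans (le_of_eq ?_) (h1.trans (hstep i))
    simp only [hc]
    rw [← Complex.sub_re, ← sub_mul, sub_sub_sub_cancel_right]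
  set X := |c 0| + 5 * D + 4 * |L 0| + 1 with hX
  have hex : ∃ n, 2 * X ≤ |c n| := by
    by_contra! h
    exact hcu ⟨2 * X, fun i => (h i).le⟩
  set n := Nat.find hex with hn
  have hn2 : 2 * X ≤ |c n| := Nat.find_spec hex
  have hlt : ∀ i < n, |c i| < 2 * X := fun i hi => not_le.1 (Nat.find_min hex hi)
  obtain ⟨k, hk⟩ : ∃ k, n = k + 1 := by
    refine ⟨n - 1, ?_⟩
    rcases Nat.eq_zero_or_pos n with h0 | h0
    · rw [h0] at hn2; linarith [abs_nonneg (L 0), abs_nonneg (c 0)]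
    · omega
  set P : ℕ → Prop := fun i => |c i| < X
  have hP0 : P 0 := by
    show |c 0| < X
    linarith [abs_nonneg (L 0)]
  set m := Nat.findGreatest P k with hm
  have hmX : |c m| < X := Nat.findGreatest_spec (P := P) (Nat.zero_le k) hP0
  have hmk : m ≤ k := Nat.findGreatest_le k
  have hup : |c n| ≤ 2 * X + D := by
    have := hlt k (by omega)
    have h2 := abs_le.1 (hcd k)
    rw [hk]
    linarith
  set w : ℕ := Nat.findGreatest (fun j => M j ≤ 2 * X + D) ⌊2 * X + D⌋₊ with hw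
  have hwM : M w ≤ 2 * X + D := Nat.findGreatest_spec (P := fun j => M j ≤ 2 * X + D)
    (Nat.zero_le _) (by simp only [hM]; push_cast; linarith [abs_nonneg (c 0)])
  have hrange : ∀ i, i ≤ n - m → |c (m + i)| ≤ 2 * X + D := fun i hi => by
    rcases lt_or_eq_of_le (show m + i ≤ n by omega) with h | h
    · linarith [hlt _ h]
    · rw [h]; exact hup
  have hbound := hL w a u hu (n - m) (fun i => z (m + i)) (fun i _ => hp _)
    (fun i _ => hstep (m + i))
    (fun i hi => (hhorn (m + i)).trans (hmono (hrange i hi)))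
  have hdist : |c n| - |c m| ≤ L w := by
    have h1 := Complex.abs_re_le_norm (((z n : ℂ) - (z m : ℂ)) * (starRingEnd ℂ) u)
    rw [norm_mul, Complex.norm_conj, hu, mul_one] at h1
    have e : (((z n : ℂ) - (z m : ℂ)) * (starRingEnd ℂ) u).re = c n - c m := by
      simp only [hc]
      rw [← Complex.sub_re, ← sub_mul, sub_sub_sub_cancel_right]
    rw [e] at h1
    have e2 : m + (n - m) = n := by omega
    simp only [e2, Nat.add_zero] at hbound
    linarith [abs_sub_abs_le_abs_sub (c n) (c m)]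
  have hLw : 4 * L w ≤ 2 * X + D := by
    simp only [hM] at hwM
    linarith [le_abs_self (L w), (Nat.cast_nonneg w : (0 : ℝ) ≤ (w : ℝ))]
  linarith [abs_nonneg (L 0), abs_nonneg (c 0)]

end Vale.Agent.P015
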